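import Vale.Agent.P368.Final

namespace Vale.Agent.Results.P368.A_full

open Vale.Agent.P368

theorem result :
    (¬ ∃ (d : ℕ) (p : Polynomial ℕ) (ε : ℝ) (N : ℕ → ℕ) (C : ∀ n, List (Layer (N n)))
      (out : ∀ n, Fin (N n)), 0 < ε ∧
        (∀ n, n ≤ N n ∧ N n ≤ p.eval n ∧ (C n).length ≤ d) ∧
        ∀ n (x : Fin n → Bool), 1 / 2 + ε ≤ prob (C n) (out n) x (par x)) ∧
    ∀ (d c : ℕ) (ε : ℝ), 0 < ε → ∃ n₀ : ℕ, ∀ n, n₀ ≤ n → ∀ N, n ≤ N → N ≤ n ^ c →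
      ∀ (C : List (Layer N)) (out : Fin N), C.length ≤ d → |corr n C out| ≤ ε :=
  ⟨main_family, fun d c _ hε => main_corr d c hε⟩

end Vale.Agent.Results.P368.A_full
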